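import Mathlib

/-!
Real places (module R of the odd degree plan): paths in the group of invertible elements and
generation by small elements. Curve in the complex plane `t + t (1 - t) y b I`, which misses a given
finite set of points different from zero and one for all but finitely many `y`.
-/

namespace Vale.Agent.P011.H36.RealP

open Topology Set Filter Matrix

section Curve

/-- The curve from zero to one. -/
noncomputable def zt (b : ℝ) (y : ℕ) (t : ℝ) : ℂ :=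
  (t : ℂ) + (t : ℂ) * (1 - (t : ℂ)) * (y : ℂ) * (b : ℂ) * Complex.I

theorem zt_zero (b : ℝ) (y : ℕ) : zt b y 0 = 0 := by simp [zt]

theorem zt_one (b : ℝ) (y : ℕ) : zt b y 1 = 1 := by simp [zt]

theorem zt_eq (b : ℝ) (y : ℕ) (t : ℝ) :
    zt b y t = ((t : ℝ) : ℂ) + ((t * (1 - t) * y * b : ℝ) : ℂ) * Complex.I := by
  simp [zt]

theorem zt_re (b : ℝ) (y : ℕ) (t : ℝ) : (zt b y t).re = t := by
  rw [zt_eq]; simp

theorem zt_im (b : ℝ) (y : ℕ) (t : ℝ) : (zt b y t).im = t * (1 - t) * y * b := by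
  rw [zt_eq, Complex.add_im, Complex.ofReal_im, Complex.mul_im, Complex.ofReal_re,
    Complex.ofReal_im]
  simp

theorem continuous_zt (b : ℝ) (y : ℕ) : Continuous (zt b y) := by
  unfold zt; fun_prop

theorem zt_inj {b : ℝ} (hb : b ≠ 0) {z : ℂ} (h0 : z ≠ 0) (h1 : z ≠ 1) {y y' : ℕ} {t t' : ℝ}
    (h : zt b y t = z) (h' : zt b y' t' = z) : y = y' := by
  have e : t = t' := by rw [← zt_re b y t, ← zt_re b y' t', h, h']
  subst e
  have e2 : t * (1 - t) * y * b = t * (1 - t) * y' * b := by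
    rw [← zt_im b y t, ← zt_im b y' t, h, h']
  have ht0 : t ≠ 0 := by
    rintro rfl
    exact h0 (by rw [← h, zt_zero])
  have ht1 : 1 - t ≠ 0 := by
    intro hh
    have : t = 1 := by linarith
    subst this
    exact h1 (by rw [← h, zt_one])
  have e3 : (y : ℝ) = y' := by
    have hne : t * (1 - t) ≠ 0 := mul_ne_zero ht0 ht1
    have := mul_right_cancel₀ hb e2
    exact mul_left_cancel₀ hne this
  exact_mod_cast e3

end Curve

section Path

variable {R : Type*} {n : ℕ}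

/-- The path from one to `G`. -/
noncomputable def pth (b : R → ℝ) (y : ℕ) (t : ℝ) (G : R → Matrix (Fin n) (Fin n) ℂ) :
    R → Matrix (Fin n) (Fin n) ℂ :=
  fun τ => 1 + zt (b τ) y t • (G τ - 1)

theorem pth_zero (b : R → ℝ) (y : ℕ) (G : R → Matrix (Fin n) (Fin n) ℂ) : pth b y 0 G = 1 := by
  funext τ; simp [pth, zt_zero]

theorem pth_one (b : R → ℝ) (y : ℕ) (G : R → Matrix (Fin n) (Fin n) ℂ) : pth b y 1 G = G := by
  funext τ; simp [pth, zt_one]

theorem pth_id (b : R → ℝ) (y : ℕ) (t : ℝ) :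
    pth b y t (1 : R → Matrix (Fin n) (Fin n) ℂ) = 1 := by
  funext τ; simp [pth]

theorem continuous_pth (b : R → ℝ) (y : ℕ) :
    Continuous fun x : ℝ × (R → Matrix (Fin n) (Fin n) ℂ) => pth b y x.1 x.2 := by
  refine continuous_pi fun τ => ?_
  have h1 : Continuous fun x : ℝ × (R → Matrix (Fin n) (Fin n) ℂ) => zt (b τ) y x.1 :=
    (continuous_zt (b τ) y).comp continuous_fst
  have h2 : Continuous fun x : ℝ × (R → Matrix (Fin n) (Fin n) ℂ) => x.2 τ :=
    (continuous_apply τ).comp continuous_snd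
  exact continuous_const.add (h1.smul (h2.sub continuous_const))

/-- The determinant polynomial. -/
noncomputable def dpoly (G : Matrix (Fin n) (Fin n) ℂ) : Polynomial ℂ :=
  (1 + (Polynomial.X : Polynomial ℂ) • (G - 1).map Polynomial.C).det

theorem eval_dpoly (G : Matrix (Fin n) (Fin n) ℂ) (z : ℂ) :
    (dpoly G).eval z = (1 + z • (G - 1)).det := by
  unfold dpoly
  rw [← Polynomial.coe_evalRingHom, RingHom.map_det]
  congr 1
  ext i j
  simp only [RingHom.mapMatrix_apply, Matrix.map_apply, Matrix.add_apply, Matrix.smul_apply,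
    smul_eq_mul, Polynomial.coe_evalRingHom, Polynomial.eval_add, Polynomial.eval_mul,
    Polynomial.eval_X, Polynomial.eval_C]
  congr 1
  by_cases h : i = j
  · subst h; simp
  · simp [Matrix.one_apply_ne h]

theorem dpoly_ne_zero (G : Matrix (Fin n) (Fin n) ℂ) : dpoly G ≠ 0 := by
  intro h
  have := eval_dpoly G 0
  rw [h] at this
  simp at this

/-- All but finitely many curves give a path of invertible elements. -/
theorem finite_bad [Finite R] {b : R → ℝ} (hb : ∀ τ, b τ ≠ 0)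
    {G : R → Matrix (Fin n) (Fin n) ℂ} (hG : ∀ τ, (G τ).det ≠ 0) :
    {y : ℕ | ¬ ∀ τ, ∀ t ∈ Icc (0 : ℝ) 1, (pth b y t G τ).det ≠ 0}.Finite := by
  have hsub : {y : ℕ | ¬ ∀ τ, ∀ t ∈ Icc (0 : ℝ) 1, (pth b y t G τ).det ≠ 0} ⊆
      ⋃ τ : R, ⋃ z ∈ ((dpoly (G τ)).roots.toFinset : Set ℂ),
        {y : ℕ | z ≠ 0 ∧ z ≠ 1 ∧ ∃ t : ℝ, zt (b τ) y t = z} := by
    intro y hy
    simp only [mem_ofPred_eq] at hy
    push Not at hy
    obtain ⟨τ, t, -, hd⟩ := hy
    refine mem_iUnion.2 ⟨τ, mem_iUnion₂.2 ⟨zt (b τ) y t, ?_, ?_, ?_, t, rfl⟩⟩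
    · simp only [Finset.mem_coe, Multiset.mem_toFinset]
      rw [Polynomial.mem_roots (dpoly_ne_zero _), Polynomial.IsRoot.def, eval_dpoly]
      exact hd
    · intro h0
      apply one_ne_zero (α := ℂ)
      rw [← hd]
      simp [pth, h0]
    · intro h1
      apply hG τ
      rw [← hd]
      simp [pth, h1]
  refine Set.Finite.subset ?_ hsub
  refine Set.finite_iUnion fun τ => ?_
  refine Set.Finite.biUnion (Finset.finite_toSet _) fun z _ => ?_
  refine Set.Subsingleton.finite ?_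
  rintro y ⟨h0, h1, t, ht⟩ y' ⟨-, -, t', ht'⟩
  exact zt_inj (hb τ) h0 h1 ht ht'

theorem exists_y [Finite R] {b : R → ℝ} (hb : ∀ τ, b τ ≠ 0)
    {G : R → Matrix (Fin n) (Fin n) ℂ} (hG : ∀ τ, (G τ).det ≠ 0) :
    ∃ y : ℕ, ∀ τ, ∀ t ∈ Icc (0 : ℝ) 1, (pth b y t G τ).det ≠ 0 := by
  obtain ⟨y, hy⟩ := (finite_bad hb hG).exists_notMem
  simp only [mem_ofPred_eq, not_not] at hy
  exact ⟨y, hy⟩

theorem continuousAt_inv {A : Matrix (Fin n) (Fin n) ℂ} (hA : A.det ≠ 0) :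
    ContinuousAt (fun B : Matrix (Fin n) (Fin n) ℂ => B⁻¹) A := by
  have h1 : ContinuousAt (fun B : Matrix (Fin n) (Fin n) ℂ => (B.det)⁻¹) A :=
    (continuous_id.matrix_det.continuousAt).inv₀ hA
  have h2 : ContinuousAt (fun B : Matrix (Fin n) (Fin n) ℂ => B.adjugate) A :=
    continuous_id.matrix_adjugate.continuousAt
  have h3 := h1.smul h2
  refine h3.congr (Eventually.of_forall fun B => ?_)
  simp only [Matrix.inv_def, Ring.inverse_eq_inv']
  rfl

/-- A path quotient, general parameter space. -/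
theorem quot_cont {P : Type*} [TopologicalSpace P] [Finite R]
    {f g : P → R → Matrix (Fin n) (Fin n) ℂ} {p : P} (hf : ContinuousAt f p)
    (hg : ContinuousAt g p) (hd : ∀ τ, (f p τ).det ≠ 0) (hfg : f p = g p)
    {O : Set (R → Matrix (Fin n) (Fin n) ℂ)} (hO : O ∈ 𝓝 (1 : R → Matrix (Fin n) (Fin n) ℂ)) :
    ∀ᶠ q in 𝓝 p, (∀ τ, (f q τ).det ≠ 0) ∧ (fun τ => (f q τ)⁻¹ * g q τ) ∈ O := by
  have hdet : ∀ τ, ∀ᶠ q in 𝓝 p, (f q τ).det ≠ 0 := by
    intro τ
    have h1 : ContinuousAt (fun q => (f q τ).det) p :=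
      (continuous_id.matrix_det.continuousAt).comp ((continuous_apply τ).continuousAt.comp hf)
    exact h1.eventually_ne (hd τ)
  have h2 : ContinuousAt (fun q => (fun τ => (f q τ)⁻¹ * g q τ)) p := by
    refine continuousAt_pi.2 fun τ => ?_
    have h3 : ContinuousAt (fun q => (f q τ)⁻¹) p :=
      ContinuousAt.comp (g := fun B : Matrix (Fin n) (Fin n) ℂ => B⁻¹)
        (f := fun q => f q τ) (continuousAt_inv (hd τ))
        ((continuous_apply τ).continuousAt.comp hf)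
    have h4 : ContinuousAt (fun q => g q τ) p := (continuous_apply τ).continuousAt.comp hg
    exact h3.mul h4
  have h5 : (fun τ => (f p τ)⁻¹ * g p τ) = (1 : R → Matrix (Fin n) (Fin n) ℂ) := by
    funext τ
    rw [← hfg]
    simp [Matrix.nonsing_inv_mul _ (isUnit_iff_ne_zero.2 (hd τ))]
  have h6 : ∀ᶠ q in 𝓝 p, (fun τ => (f q τ)⁻¹ * g q τ) ∈ O := by
    apply h2.eventually_mem
    rw [h5]; exact hO
  exact ((Filter.eventually_all.2 hdet).and h6)

theorem path_unif [Finite R] {b : R → ℝ} {y : ℕ} {G : R → Matrix (Fin n) (Fin n) ℂ}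
    (hy : ∀ τ, ∀ t ∈ Icc (0 : ℝ) 1, (pth b y t G τ).det ≠ 0)
    {O : Set (R → Matrix (Fin n) (Fin n) ℂ)} (hO : O ∈ 𝓝 (1 : R → Matrix (Fin n) (Fin n) ℂ)) :
    ∃ W ∈ 𝓝 G, ∃ η > 0, ∀ G' ∈ W, ∀ t ∈ Icc (0 : ℝ) 1, ∀ t' : ℝ, |t - t'| < η →
      (∀ τ, (pth b y t G' τ).det ≠ 0) ∧
        (fun τ => (pth b y t G' τ)⁻¹ * pth b y t' G' τ) ∈ O := by
  have key : ∀ᶠ x : (R → Matrix (Fin n) (Fin n) ℂ) × ℝ in 𝓝 (G, 0), ∀ t ∈ Icc (0 : ℝ) 1,
      (∀ τ, (pth b y t x.1 τ).det ≠ 0) ∧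
        (fun τ => (pth b y t x.1 τ)⁻¹ * pth b y (t + x.2) x.1 τ) ∈ O := by
    refine IsCompact.eventually_forall_of_forall_eventually isCompact_Icc ?_
    intro t ht
    have h1 : Continuous fun z : ((R → Matrix (Fin n) (Fin n) ℂ) × ℝ) × ℝ =>
        pth b y z.2 z.1.1 :=
      (continuous_pth b y).comp (continuous_snd.prodMk (continuous_fst.comp continuous_fst))
    have h2 : Continuous fun z : ((R → Matrix (Fin n) (Fin n) ℂ) × ℝ) × ℝ =>
        pth b y (z.2 + z.1.2) z.1.1 :=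
      (continuous_pth b y).comp ((continuous_snd.add
        (continuous_snd.comp continuous_fst)).prodMk (continuous_fst.comp continuous_fst))
    exact quot_cont (p := ((G, (0 : ℝ)), t)) h1.continuousAt h2.continuousAt
      (fun τ => hy τ t ht) (by simp) hO
  rw [nhds_prod_eq] at key
  obtain ⟨W, hW, V, hV, hWV⟩ := Filter.mem_prod_iff.1 key
  obtain ⟨η, hη, hball⟩ := Metric.mem_nhds_iff.1 hV
  refine ⟨W, hW, η, hη, fun G' hG' t ht t' htt => ?_⟩
  have hm : (G', t' - t) ∈ W ×ˢ V := by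
    refine ⟨hG', hball ?_⟩
    rw [Metric.mem_ball, Real.dist_eq, sub_zero, abs_sub_comm]
    exact htt
  have := hWV hm t ht
  simpa using this

theorem path_cmp [Finite R] {b : R → ℝ} {y : ℕ} {G : R → Matrix (Fin n) (Fin n) ℂ}
    (hy : ∀ τ, ∀ t ∈ Icc (0 : ℝ) 1, (pth b y t G τ).det ≠ 0)
    {O : Set (R → Matrix (Fin n) (Fin n) ℂ)} (hO : O ∈ 𝓝 (1 : R → Matrix (Fin n) (Fin n) ℂ)) :
    ∃ W ∈ 𝓝 G, ∃ V ∈ 𝓝 (1 : R → Matrix (Fin n) (Fin n) ℂ), ∀ G' ∈ W, ∀ X ∈ V,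
      ∀ t ∈ Icc (0 : ℝ) 1, (∀ τ, (pth b y t G' τ).det ≠ 0) ∧
        (fun τ => (pth b y t G' τ)⁻¹ * pth b y t (G' * X) τ) ∈ O := by
  have key : ∀ᶠ x : (R → Matrix (Fin n) (Fin n) ℂ) × (R → Matrix (Fin n) (Fin n) ℂ)
      in 𝓝 (G, 1), ∀ t ∈ Icc (0 : ℝ) 1, (∀ τ, (pth b y t x.1 τ).det ≠ 0) ∧
        (fun τ => (pth b y t x.1 τ)⁻¹ * pth b y t (x.1 * x.2) τ) ∈ O := by
    refine IsCompact.eventually_forall_of_forall_eventually isCompact_Icc ?_
    intro t ht
    have h1 : Continuous fun z : ((R → Matrix (Fin n) (Fin n) ℂ) ×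
        (R → Matrix (Fin n) (Fin n) ℂ)) × ℝ => pth b y z.2 z.1.1 :=
      (continuous_pth b y).comp (continuous_snd.prodMk (continuous_fst.comp continuous_fst))
    have hm : Continuous fun z : ((R → Matrix (Fin n) (Fin n) ℂ) ×
        (R → Matrix (Fin n) (Fin n) ℂ)) × ℝ => z.1.1 * z.1.2 := by
      refine continuous_pi fun τ => ?_
      have e1 : Continuous fun z : ((R → Matrix (Fin n) (Fin n) ℂ) ×
        (R → Matrix (Fin n) (Fin n) ℂ)) × ℝ => z.1.1 τ :=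
        (continuous_apply τ).comp (continuous_fst.comp continuous_fst)
      have e2 : Continuous fun z : ((R → Matrix (Fin n) (Fin n) ℂ) ×
        (R → Matrix (Fin n) (Fin n) ℂ)) × ℝ => z.1.2 τ :=
        (continuous_apply τ).comp (continuous_snd.comp continuous_fst)
      exact e1.mul e2
    have h2 : Continuous fun z : ((R → Matrix (Fin n) (Fin n) ℂ) ×
        (R → Matrix (Fin n) (Fin n) ℂ)) × ℝ => pth b y z.2 (z.1.1 * z.1.2) :=
      (continuous_pth b y).comp (continuous_snd.prodMk hm)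
    exact quot_cont (p := ((G, (1 : R → Matrix (Fin n) (Fin n) ℂ)), t)) h1.continuousAt
      h2.continuousAt (fun τ => hy τ t ht) (by simp) hO
  rw [nhds_prod_eq] at key
  obtain ⟨W, hW, V, hV, hWV⟩ := Filter.mem_prod_iff.1 key
  exact ⟨W, hW, V, hV, fun G' hG' X hX t ht => hWV (mk_mem_prod hG' hX) t ht⟩

end Path

end Vale.Agent.P011.H36.RealP

namespace Vale.Agent.P011.H36

open RealP

/-- (R1) of row 10819. -/
theorem path_mat {T : Type*} [Finite T] {n : ℕ} (σ : T → ℝ) (hσ : ∀ τ, σ τ ≠ 0)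
    (X : T → Matrix (Fin n) (Fin n) ℂ) (hX : ∀ τ, IsUnit (X τ)) :
    ∃ y : ℕ, ∀ τ, ∀ t ∈ Set.Icc (0 : ℝ) 1,
      IsUnit (1 + (((t : ℂ) + (t * (1 - t) * y * σ τ : ℝ) * Complex.I)) • (X τ - 1)) := by
  have hX' : ∀ τ, (X τ).det ≠ 0 := fun τ =>
    isUnit_iff_ne_zero.1 ((Matrix.isUnit_iff_isUnit_det _).1 (hX τ))
  obtain ⟨y, hy⟩ := exists_y hσ hX'
  refine ⟨y, fun τ t ht => ?_⟩
  have h := hy τ t ht
  rw [Matrix.isUnit_iff_isUnit_det, isUnit_iff_ne_zero]
  simp only [pth, zt_eq] at h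
  exact h

/-- The same, avoiding a finite set of `y`. -/
theorem path_mat_avoid {T : Type*} [Finite T] {n : ℕ} (σ : T → ℝ) (hσ : ∀ τ, σ τ ≠ 0)
    (X : T → Matrix (Fin n) (Fin n) ℂ) (hX : ∀ τ, IsUnit (X τ)) :
    {y : ℕ | ¬ ∀ τ, ∀ t ∈ Set.Icc (0 : ℝ) 1,
      IsUnit (1 + (((t : ℂ) + (t * (1 - t) * y * σ τ : ℝ) * Complex.I)) • (X τ - 1))}.Finite := by
  have hX' : ∀ τ, (X τ).det ≠ 0 := fun τ =>
    isUnit_iff_ne_zero.1 ((Matrix.isUnit_iff_isUnit_det _).1 (hX τ))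
  refine (finite_bad hσ hX').subset fun y hy h => hy fun τ t ht => ?_
  have h' := h τ t ht
  rw [Matrix.isUnit_iff_isUnit_det, isUnit_iff_ne_zero]
  simp only [pth, zt_eq] at h'
  exact h'

end Vale.Agent.P011.H36
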